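import Crest.Agent.X212.Map77.S0
import Crest.Agent.X212.Pb50.Act
import Crest.Agent.X212.Taub88.Pt8
import Crest.Agent.X212.Wz78.Sd
import Crest.Agent.X212.Wz78.Hs
import Crest.Agent.X212.Wz78.Var

/-!
# Row 212, MS-OP (helper40): the linearised Seiberg-Witten operator
-/

set_option autoImplicit false
set_option linter.unusedSectionVars false
noncomputable section
open scoped Manifold ContDiff Topology InnerProductSpace
open Finset Filter

namespace Crest.Agent.X212.Op40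
open An An.Pre Sob92 Ell97 Map77.S
open Map77 hiding Cf Ef
open Wz78 (SA dir nab curv nabE)
open Sw (Bg F2)
open Taub88 (PC)

variable {κ lam ν : Type} [Fintype κ] [Fintype lam] [Fintype ν] [DecidableEq ν]
  {E : Type} [NormedAddCommGroup E] [NormedSpace ℝ E] [FiniteDimensional ℝ E]
  [MeasurableSpace E] [BorelSpace E]
  {HM : Type} [TopologicalSpace HM] {I : ModelWithCorners ℝ E HM}
  {M : Type} [TopologicalSpace M] [ChartedSpace HM M] [IsManifold I ∞ M] [MeasurableSpace M]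
  {nc : ℕ} {b : Bg I M κ lam ν nc} {c : Sw.Cfg M κ ν} {x : M}

theorem qL_eq (u v : Eu ν) : qL b x u v = b.qd x u v := fm_ext fun s => by
  simp only [qL, _root_.sum_apply, post_apply]
  rw [Map77.sum_ij]
  exact congrArg ((1 / 8 : ℝ) * ·) (real_inner_comm _ u)

theorem σ2 (a : Option κ) (u : Cf κ ν) : s2 _ _ (f2 _ _ ((full b c).σ a x u)) =
    b.p2 x (wd2 ℝ (fun i j => b.B.P i j x) a (b.p1 x (f2 _ _ u))) := by
  simp [full, Map77.cut, σF]

theorem σ3 (a : Option κ) (u : Cf κ ν) : s2 _ _ ((full b c).σ a x u) = b.p1 x (f2 _ _ u) a := by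
  simp [full, Map77.cut, σF, co_apply]

variable (hb : b.OK)
include hb

theorem pc (x : M) : PC (fun i j => b.B.P i j x) (fun i j k l => b.B.o i j k l x) (b.m.p x) b.m.J
    fun i => b.m.ρ i x :=
  ⟨hb.B.pr x, Wz78.b_on hb.B x, hb.m.cl x trivial, hb.m.psym x trivial,
    fun a => hb.m.ρsk a x trivial, hb.m.Jsk, fun a => hb.m.Jρ a x trivial, hb.m.Jp x trivial,
    by rw [hb.m.Jsq, neg_one_mul]⟩

theorem vol (x : M) : Vol (fun i j => b.B.P i j x) fun i j k l => b.B.o i j k l x :=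
  ⟨hb.B.pr x, hb.B.rk x, fun _ _ _ _ => hb.B.o12 _ _ _ _ x, fun _ _ _ _ => hb.B.o23 _ _ _ _ x,
    fun _ _ _ _ => hb.B.o34 _ _ _ _ x, fun _ _ _ _ => hb.B.oP _ _ _ _ x, hb.B.onm x⟩

theorem prj1 : Prj b.p1 := ⟨fun x => idx_idem (hb.B.pr x).idem fun _ => rfl,
  fun x => idx_symm (hb.B.pr x).symm fun _ _ => rfl⟩

theorem prj2 : Prj b.p2 := ⟨fun x => idx_idem (vol hb x).sdm_idem fun _ => rfl,
  fun x => idx_symm (vol hb x).sdm_symm fun _ _ => rfl⟩

theorem prjp : Prj b.pp := ⟨fun x v => congrArg (· v) (pc hb x).pp_pp, fun x => (pc hb x).pp_s⟩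

theorem prjm : Prj b.pm := ⟨fun x v => congrArg (· v) (pc hb x).pm_pm, fun x => (pc hb x).pm_s⟩

theorem prjC : Prj (pC b) := (prj1 hb).ps (prjp hb)

theorem prjE : Prj (pE b) := ((prjm hb).ps (prj2 hb)).ps ⟨fun _ _ => rfl, fun _ _ _ => rfl⟩

theorem P_p1 (α : Fm (Option κ) ℝ) (a : Option κ) :
    ∑ k, b.B.P a k x • b.p1 x α k = b.p1 x α a := by
  conv_rhs => rw [← (prj1 hb).idem, Bg.p1, idx_apply]
  rfl

theorem sd_p2 (ζ : F2 κ) :
    SD (fun i j => b.B.P i j x) (fun i j k l => b.B.o i j k l x) (b.p2 x ζ) := (vol hb x).sd_idx _ ζ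

theorem mp (a : Option κ) (v : Eu ν) : b.pm x (b.m.ρ a x (b.pp x v)) = b.m.ρ a x (b.pp x v) :=
  (pc hb x).pm_ρ ((prjp hb).idem x v) a

theorem pm (a : Option κ) (v : Eu ν) : b.pp x (b.m.ρ a x (b.pm x v)) = b.m.ρ a x (b.pm x v) :=
  (pc hb x).pp_ρ ((prjm hb).idem x v) a

theorem inner_ρρ {v w : Eu ν} (hw : b.m.p x w = w) (i j : Option κ) :
    ⟪b.m.ρ i x v, b.m.ρ j x w⟫_ℝ + ⟪b.m.ρ j x v, b.m.ρ i x w⟫_ℝ = 2 * b.B.P i j x * ⟪v, w⟫_ℝ := by
  rw [(pc hb x).ρs, (pc hb x).ρs, (pc hb x).rel i j, hw, inner_sub_right, inner_neg_right,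
    real_inner_smul_right]
  ring

theorem σ1 (a : Option κ) (u : Cf κ ν) :
    f2 _ _ (f2 _ _ ((full b c).σ a x u)) = b.m.ρ a x (b.pp x (sp u)) := by
  simp [full, Map77.cut, σF, mp hb]

theorem alg_full : Alg b.F.P (full b c) := by
  refine ⟨prjC hb, prjE hb, fun a x v => congrArg (fun z => pE b x (σF b a x z))
    ((prjC hb).idem x v), fun a x v => (prjE hb).idem x _, fun x v => (prjE hb).idem x _,
    fun a x => ?_⟩
  have h : ∀ k, ∑ j, b.B.P a j x * b.B.P k j x = b.B.P k a x := fun k => by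
    simp only [(hb.B.pr x).symm k, (hb.B.pr x).idem]
  ext1 v
  simp only [hb.G.P, _root_.sum_apply, smul_apply]
  refine ext2 (ext2 ?_ ?_) ?_
  · simp only [map_sum, map_smul, σ1 hb, (pc hb x).sum_ρ]
  · simp only [map_sum, map_smul, σ2]
    simp only [← map_smul, ← map_sum]
    exact congrArg _ (fm_ext fun s => by
      simp [-Fintype.sum_option, wd2_apply, mul_sub, ← mul_assoc, ← sum_mul, h])
  · simp only [map_sum, map_smul, σ3, P_p1 hb]

theorem inner_wd (i j : Option κ) (α α' : Fm (Option κ) ℝ) :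
    ⟪b.p2 x (wd2 ℝ (fun i j => b.B.P i j x) i (b.p1 x α)),
      b.p2 x (wd2 ℝ (fun i j => b.B.P i j x) j (b.p1 x α'))⟫_ℝ =
      b.B.P i j x * ⟪b.p1 x α, b.p1 x α'⟫_ℝ - ⟪b.p1 x α j, b.p1 x α' i⟫_ℝ +
        ∑ k, ∑ l, b.B.o i k j l x * ⟪b.p1 x α k, b.p1 x α' l⟫_ℝ := by
  have e : ∀ k, (2 : ℝ) • b.p2 x (wd2 ℝ (fun i j => b.B.P i j x) j (b.p1 x α')) (i, k) = _ :=
    (vol hb x).sd_wd2 (T := ContinuousLinearMap.id ℝ ℝ) (fun _ => rfl) (P_p1 hb α') j i
  rw [(prj2 hb).symm, (prj2 hb).idem, inner_wd2 (hb.B.pr x) (sd_p2 hb _), mul_sum]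
  simp only [← real_inner_smul_right, e]
  simp only [inner_add_right, inner_sub_right, inner_sum, real_inner_smul_right, sum_add_distrib,
    sum_sub_distrib]
  rw [inner_fm (X := ℝ), mul_sum]
  congr 2
  rw [← P_p1 hb α j]
  simp only [sum_inner, real_inner_smul_left, (hb.B.pr x).symm j]

theorem cliffL_full : (full b c).CliffL b.F := by
  intro i j x v w
  have e1 : ∑ k, ∑ l, b.B.o j k i l x * ⟪b.p1 x (f2 _ _ v) k, b.p1 x (f2 _ _ w) l⟫_ℝ =
      -∑ k, ∑ l, b.B.o i k j l x * ⟪b.p1 x (f2 _ _ v) k, b.p1 x (f2 _ _ w) l⟫_ℝ := by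
    simp only [← sum_neg_distrib]
    refine sum_congr rfl fun k _ => sum_congr rfl fun l _ => ?_
    rw [hb.B.o12, hb.B.o23, hb.B.o12, neg_neg, neg_mul]
  have e2 := inner_ρρ hb (v := b.pp x (sp v)) ((pc hb x).p_of ((prjp hb).idem x (sp w))) i j
  have e3 : ⟪(full b c).p x v, w⟫_ℝ =
      ⟪b.p1 x (f2 _ _ v), b.p1 x (f2 _ _ w)⟫_ℝ + ⟪b.pp x (sp v), b.pp x (sp w)⟫_ℝ := by
    rw [← (prj1 hb).symm, (prj1 hb).idem, ← (prjp hb).symm, (prjp hb).idem, inner2]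
    exact congrArg₂ (· + ·) (by rw [← f2_ps]; rfl) (by rw [← s2_ps]; rfl)
  simp only [inner2 ((full b c).σ _ x v), inner2 (f2 _ _ ((full b c).σ _ x v)), σ1 hb, σ2, σ3,
    inner_wd hb, e1, e3, hb.G.P, (hb.B.pr x).symm j i]
  linarith

theorem tr_full (a : Option κ) (y : Ef κ ν) : Op.tr ((full b c).σ a x) y =
    i1 _ _ (WithLp.toLp 2 fun k => b.B.P k a x * s2 _ _ y + 2 * b.p2 x (s2 _ _ (f2 _ _ y)) (a, k)) -
      i2 _ _ (b.m.ρ a x (b.pm x (f2 _ _ (f2 _ _ y)))) := by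
  refine ext_inner_left ℝ fun v => ?_
  set z : Fm (Option κ) ℝ :=
    WithLp.toLp 2 fun k => b.B.P k a x * s2 _ _ y + 2 * b.p2 x (s2 _ _ (f2 _ _ y)) (a, k) with hz
  have e : b.p1 x z = z := fm_ext fun k => by
    have := (sd_p2 hb (x := x) (s2 _ _ (f2 _ _ y))).pr' a k
    simp only [smul_eq_mul] at this
    simp only [Bg.p1, idx_apply, hz, ContinuousLinearMap.id_apply, smul_eq_mul, mul_add,
      sum_add_distrib, mul_left_comm _ (2 : ℝ), ← mul_sum, this]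
    simp only [← mul_assoc, ← sum_mul, (hb.B.pr x).idem]
  rw [inner_tr, inner2, inner2, σ1 hb, σ2, σ3, (prj2 hb).symm,
    inner_wd2 (hb.B.pr x) (sd_p2 hb _), inner2, ← mp hb, (prjm hb).symm, (pc hb x).ρs,
    (prjp hb).symm, pm hb]
  simp only [map_sub, f2_i1, f2_i2, s2_i1, s2_i2, sub_zero, zero_sub, inner_neg_right]
  rw [← e, ← (prj1 hb).symm, inner_fm (b.p1 x _), ← P_p1 hb _ a, sum_inner, mul_sum, add_assoc,
    add_comm, ← sum_add_distrib]
  simp only [hz, RCLike.inner_apply, conj_trivial, smul_eq_mul, (hb.B.pr x).symm a]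
  exact congrArg (· + _) (sum_congr rfl fun k _ => by ring)

theorem cliff_full : (full b c).Cliff b.F := by
  refine ⟨cliffL_full hb, fun i j x v w => ?_⟩
  set ζ := b.p2 x (s2 _ _ (f2 _ _ v)) with hζ
  set η := b.p2 x (s2 _ _ (f2 _ _ w)) with hη
  have sζ := sd_p2 hb (x := x) (s2 _ _ (f2 _ _ v))
  have sη := sd_p2 hb (x := x) (s2 _ _ (f2 _ _ w))
  rw [← hζ] at sζ
  rw [← hη] at sη
  have e1 := (vol hb x).quat sζ sη i j
  have e2 := inner_ρρ hb (v := b.pm x (f2 _ _ (f2 _ _ v))) (w := b.pm x (f2 _ _ (f2 _ _ w)))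
    (congrArg (· (f2 _ _ (f2 _ _ w))) (pc hb x).p_pm) i j
  have e3 : ⟪((full b c).adj b.F).p x v, w⟫_ℝ = ⟪b.pm x (f2 _ _ (f2 _ _ v)),
      b.pm x (f2 _ _ (f2 _ _ w))⟫_ℝ + ∑ s, ⟪ζ s, η s⟫_ℝ + s2 _ _ v * s2 _ _ w := by
    rw [← inner_fm (X := ℝ), hζ, hη, ← (prjm hb).symm, (prjm hb).idem, ← (prj2 hb).symm,
      (prj2 hb).idem]
    change ⟪pE b x v, w⟫_ℝ = _
    simp only [inner2, f2_ps, s2_ps]
    exact congrArg _ (mul_comm _ _)
  have e4 : ∀ i j {θ : F2 κ}, SD (fun i j => b.B.P i j x) (fun i j k l => b.B.o i j k l x) θ →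
      ∑ k, b.B.P k i x * θ (j, k) = θ (j, i) := fun i j θ hθ => by
    simpa only [smul_eq_mul, (hb.B.pr x).symm i] using hθ.pr' j i
  have e5 : ∀ i j, ∑ k, b.B.P k i x * b.B.P k j x = b.B.P i j x := fun i j => by
    simp only [(hb.B.pr x).symm _ i, (hb.B.pr x).idem]
  have e6 : ∀ i j, ⟪(WithLp.toLp 2 fun k => b.B.P k i x * s2 _ _ v + 2 * ζ (i, k) :
      Fm (Option κ) ℝ), WithLp.toLp 2 fun k => b.B.P k j x * s2 _ _ w + 2 * η (j, k)⟫_ℝ =
      b.B.P i j x * (s2 _ _ v * s2 _ _ w) + 2 * s2 _ _ v * η (j, i) + 2 * s2 _ _ w * ζ (i, j) +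
        4 * ∑ k, ⟪ζ (i, k), η (j, k)⟫_ℝ := fun i j => by
    rw [← e4 i j sη, ← e4 j i sζ, ← e5 i j, inner_fm (X := ℝ)]
    simp only [sum_mul, mul_sum, ← sum_add_distrib, RCLike.inner_apply, conj_trivial]
    exact sum_congr rfl fun k _ => by ring
  rw [e3]
  simp only [Op.adj, _root_.neg_apply, inner_neg_neg]
  simp only [tr_full hb, inner2, map_sub, f2_i1, f2_i2, s2_i1, s2_i2, sub_zero, zero_sub, ← hζ,
    ← hη, e6, inner_neg_neg, hb.G.P, (hb.B.pr x).symm j i, sζ.anti j i, sη.anti j i]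
  linarith

theorem jp_jp (x : M) : ⟪hsL (b.jp x), hsL (b.jp x)⟫_ℝ = 8 := by
  have h : Skw (b.jp x) := fun v w => by
    rw [Bg.jp, mul_apply_eq_comp, hb.m.Jsk, hb.m.psym x trivial, hb.m.Jp x trivial,
      mul_apply_eq_comp]
  rw [Wz78.inner_hsL_skw h, Bg.jp, mul_assoc, ← mul_assoc (b.m.p x), ← (pc hb x).Jp,
    mul_assoc, (pc hb x).p_p, ← mul_assoc, hb.m.Jsq, neg_one_mul, map_neg, neg_neg, Wz78.trE_eq]
  exact hb.m.prk x trivial

theorem sa_vol (x : M) : SA I b.vol x :=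
  SA.smul contMDiffAt_const (SA.sum _ fun i _ => SA.sum _ fun j _ => SA.sum _ fun k _ =>
    SA.sum _ fun l _ => SA.smul (hb.B.so i j k l x) (SA.mul (SA.mul (SA.mul (hb.cc.sρ i x)
      (hb.cc.sρ j x)) (hb.cc.sρ k x)) (hb.cc.sρ l x)))

theorem sa_pp (x : M) : SA I b.pp x :=
  SA.smul contMDiffAt_const ((hb.cc.sp x).sub (sa_vol hb x))

theorem pp_par (i : Option κ) (x : M) : nabE I b.F.e b.A i b.pp x = 0 := by
  have h := hb.cc.par_of_anti (sa_vol hb x) (.of_forall fun y j => (pc hb y).om_ρ j)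
    (.of_forall fun y => (pc hb y).om_om) (.of_forall fun y => (pc hb y).p_om)
    (fun T hT => by rw [Bg.vol, mul_smul_comm, smul_mul_assoc, Wz78.comm_four hT]) i
  unfold Bg.pp
  rw [Wz78.nabE_smul i contMDiffAt_const ((hb.cc.sp x).sub (sa_vol hb x)),
    Wz78.nabE_sub i (hb.cc.sp x) (sa_vol hb x), h, show nabE I b.F.e b.A i b.m.p x = 0 from
      hb.cc.par i x]
  simp

theorem pp_jp {v : Eu ν} (hv : b.pp x v = v) : b.pp x (b.jp x v) = b.jp x v := by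
  rw [Bg.jp, mul_apply_eq_comp, (pc hb x).p_of hv]
  exact (pc hb x).pp_J hv

/-- covariant derivatives of positive spinors are positive -/
theorem pp_nab {φ : M → Eu ν} (hφ : SA I φ x) (hp : ∀ᶠ y in 𝓝 x, b.pp y (φ y) = φ y)
    (i : Option κ) : b.pp x (nab I b.F.e (b.W c) i φ x) = nab I b.F.e (b.W c) i φ x := by
  have h := Wz78.nab_app' (e := b.F.e) (A := b.A) i (sa_pp hb x) hφ
  rw [pp_par hb, Wz78.nab_congr i hp, zero_apply, zero_add] at h
  have e : nab I b.F.e (b.W c) i φ x = nab I b.F.e b.A i φ x + c.a i x • b.jp x (φ x) := by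
    simp only [nab, Bg.W, add_apply, smul_apply, add_assoc]
  rw [e, map_add, map_smul, ← h, pp_jp hb hp.self_of_nhds]

theorem pm_dir {φ : M → Eu ν} (hφ : SA I φ x) (hp : ∀ᶠ y in 𝓝 x, b.pp y (φ y) = φ y) :
    b.pm x (dir I b.F.e b.m.ρ (b.W c) φ x) = dir I b.F.e b.m.ρ (b.W c) φ x := by
  rw [dir, map_sum]
  exact sum_congr rfl fun i _ => (pc hb x).pm_ρ (pp_nab hb hφ hp i) i

theorem pm_ms (v : Eu ν) : b.pm x (b.ms x v) = b.ms x v := by
  rw [← hb.msp x, mul_apply_eq_comp, mul_apply_eq_comp, (prjm hb).idem]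

theorem sm_pC : Sm I (pC b) := fun x => by
  have h : SA I b.p1 x := by
    unfold Bg.p1
    simp only [idx_eq, tp_eq]
    exact SA.sum _ fun i _ => contMDiffAt_const.clm_comp (SA.sum _ fun j _ =>
      SA.smul (hb.B.sP i j x) contMDiffAt_const)
  exact (contMDiffAt_const.clm_comp (h.clm_comp contMDiffAt_const)).add
    (contMDiffAt_const.clm_comp ((sa_pp hb x).clm_comp contMDiffAt_const))

theorem fc_vr (hc : b.Adm c) {u : M → Cf κ ν} (hu : Sm I u) (r : ℝ) (s : Option κ × Option κ) :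
    b.fc (vr c u r) x s = b.fc c x s + r * (co s.2 (b.F.D s.1 u x) - co s.1 (b.F.D s.2 u x) -
      ∑ k, b.F.c s.1 s.2 k x * co k (u x)) := by
  have h : ∀ i, SA I (fun y => r * co i (u y)) x := fun i =>
    SA.mul contMDiffAt_const (SA.clm _ (hu x))
  have d : ∀ i j, b.F.D i ((vr c u r).a j) x = b.F.D i (c.a j) x + r * co j (b.F.D i u x) :=
    fun i j => (Wz78.dv_add' (hc.sa j x) (h j)).trans
      (congrArg _ (dv_clm (r • co j) (md hu x)))
  simp only [Bg.fc, Pb50.curv_W hb (fun i => hc.sa i x),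
    Pb50.curv_W hb (c := vr c u r) fun i => (hc.sa i x).add (h i), map_add, map_smul,
    inner_add_right, real_inner_smul_right, jp_jp hb, d]
  simp only [vr, mul_add, sum_add_distrib, mul_left_comm _ r, ← mul_sum]
  ring

theorem app_full (hc : b.Adm c) (u : M → Cf κ ν) (hu : Sm I u) (hp : ∀ x, pC b x (u x) = u x)
    (x : M) : (full b c).app b.F u x =
    i1 _ _ (i1 _ _ (b.eD (vr c u 1) x - b.eD c x -
        ∑ i, co i (u x) • b.m.ρ i x (b.jp x (sp (u x)))) +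
      i2 _ _ (b.eC (vr c u 1) x - b.eC c x + b.w • b.p2 x (b.qd x (sp (u x)) (sp (u x))))) +
    i2 _ _ (lG b c u x) := by
  have sφ : SA I (fun y => sp (u y)) x := SA.clm _ (hu x)
  have dφ : ∀ i, dv I (b.F.e i) (fun y => sp (u y)) x = sp (b.F.D i u x) := fun i =>
    dv_clm _ (md hu x)
  rw [Op.app, full, op_cut _ (sm_pC hb) hu hp]
  refine ext2 (ext2 ?_ ?_) ?_
  · have e1 : f2 _ _ (f2 _ _ (b.F.op (σF b) (BF b c) u x)) =
        dir I b.F.e b.m.ρ (b.W c) (fun y => sp (u y)) x + b.ms x (sp (u x)) +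
          ∑ i, co i (u x) • b.m.ρ i x (b.jp x (c.Φ x)) := by
      simp [Pre.op, σF, BF, dir, nab, dφ, sum_add_distrib, add_assoc]
    have e2 : ∀ i, dv I (b.F.e i) (vr c u 1).Φ x = dv I (b.F.e i) c.Φ x + sp (b.F.D i u x) :=
      fun i => by
        simp only [vr, one_smul]
        rw [Wz78.dv_add' (hc.sΦ x) sφ, dφ]
    have e3 : ∀ i, b.pm x (b.m.ρ i x (b.jp x (c.Φ x))) = _ := (pc hb x).pm_ρ (pp_jp hb (hc.pΦ x))
    simp only [f2_ps, map_add (f2 _ _), f2_i1, f2_i2, add_zero, e1]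
    simp only [map_add, pm_ms hb, map_sum, map_smul, e3,
      pm_dir hb sφ (.of_forall fun y => (s2_ps y _).symm.trans (congrArg _ (hp y)))]
    simp only [Bg.eD, dir, nab, e2, dφ]
    simp only [Bg.W, vr, one_mul, one_smul, add_smul, add_apply, smul_apply, map_add, map_smul,
      sum_add_distrib]
    abel
  · have e1 : s2 _ _ (f2 _ _ (b.F.op (σF b) (BF b c) u x)) =
        b.fc (vr c u 1) x - b.fc c x - b.w • (b.qd x (c.Φ x) (sp (u x)) +
          b.qd x (sp (u x)) (c.Φ x)) := fm_ext fun s => by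
      have e : ∀ i j, ∑ k, b.B.P i k x * f2 _ _ (b.F.D k u x) j = co j (b.F.D i u x) := fun i j => by
        rw [← sum_P_D b.F i u x, hb.G.P, map_sum]; simp only [map_smul]; rfl
      simp [-Fintype.sum_option, Pre.op, σF, BF, wd2_apply, e, fc_vr hb hc hu, qL_eq]
      ring
    simp only [f2_ps, s2_ps, map_add (f2 _ _), map_add (s2 _ _), f2_i1, f2_i2, s2_i1, s2_i2,
      add_zero, zero_add, e1, Bg.eC, ← qL_eq]
    simp only [vr, one_smul, map_add, map_sub, map_smul, add_apply]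
    module
  · have e : ∀ i, b.F.D i (fun y => co i (u y)) x = co i (b.F.D i u x) := fun i =>
      dv_clm _ (md hu x)
    simp [-Fintype.sum_option, Pre.op, σF, BF, lG, sum_add_distrib, add_assoc, e]

omit hb in
/-- **MS-OP** -/
theorem opStmt : OpStmt κ lam ν := fun _ _ _ hb _ hc =>
  ⟨alg_full hb, cliff_full hb, app_full hb hc⟩

end Crest.Agent.X212.Op40
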